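import Crest.Agent.X212.Clc51.Gen
import Crest.Agent.X212.Qab60.Lq
import Crest.Agent.X212.Mcg32.LinCl
import Crest.Agent.X212.Num57.Pc

/-!
# Row 212, QAB (helper51): the leaf CLC
-/

set_option autoImplicit false
set_option linter.unusedSectionVars false
noncomputable section
open scoped Manifold ContDiff Topology
open Filter Set
open Crest.Agent.R208.F (Ext)

namespace Crest.Agent.X212.Clc51
open An M Cmp73 Qab60
open Int54 (integ)

variable {Wi : Type} {X : Mf 4} {A κ lam : Type} [Fintype A] [Fintype κ] [Fintype lam]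
  [DecidableEq lam] {M : Mark X A κ} {W : World M} {N : ML M lam} {Λ : Lns W N}
  {A' h : Type} [Fintype A'] [DecidableEq A'] [Fintype h] {r n : ℕ}
  (J : Job Wi Λ A' h r n) (c : M.Cl)

theorem integ_job {s : A' → ℝ} (hs : J.Θ s ∈ M.O c.1) (a : (W.Z c).M → Ext (W.Z c).E) :
    integ (W.Z c).I (W.o c) a = integ (W.Z c).I (Num57.vol (J.G c s).F (J.B c).o) a :=
  have k := Num57.ok_W Λ J.m hs
  Int54.integ_congr_ori (W.ori c) k.1.ori k.2 a

theorem dch {α : Type} {β : α → Type} [∀ i, Nonempty (β i)] {P : ∀ i, β i → Prop} {l : Filter α}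
    (h : ∀ᶠ i in l, ∃ x, P i x) : ∃ f : ∀ i, β i, ∀ᶠ i in l, P i (f i) :=
  ⟨fun i => Classical.epsilon (P i), h.mono fun _ => Classical.epsilon_spec⟩

/-- **CLC** -/
theorem clc : ClcL J c := fun hJ σ hσ Ω ν _ ε v hΩ hε α 𝒰 q y q₀ y₀ hy h₀ h => by
  obtain ⟨u, ζ, k, -⟩ := h.lim
  have ok := hy.mono fun _ k => k.1.ok hJ hσ
  have o₀ := h₀.ok hJ hσ
  have b := Mcg32.bub_job hJ hΩ.2 ⟨fun x _ => k.m x trivial, fun a =>
    (k.A a).mono le_rfl (subset_univ _), k.Φ.mono le_rfl (subset_univ _), k.z⟩ h.s o₀ ok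
  obtain ⟨ξ, hξ⟩ := dch (hy.mono fun _ k => k.2)
  obtain ⟨η, r1, r2, r3⟩ := red_lim b (ξ := ξ) (hξ.mono fun _ k => k.1.rd.toRedOn)
  refine ⟨η, ⟨h₀.sol.toAdm, ⟨r1, hΩ.2, r2⟩, fun x hx => (k.Φ.eq_of (Cv.const 0) trivial
    (hξ.mono fun i e => by simp [e.1.z x hx, cs]))⟩, fun j => ?_⟩
  rw [integ_job J c o₀.2]
  exact tendsto_nhds_unique (per_lim b (W.Z c).dim (ok.mono fun _ k => k.1.conn) r3 (hε j))
    (tendsto_const_nhds.congr' ((hξ.and ok).mono fun i e =>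
      (e.1.2 j).symm.trans (integ_job J c e.2.2 _)))

end Crest.Agent.X212.Clc51
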