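import Crest.Agent.X212.Abel74.Pun
import Crest.Agent.X212.Loc66.Lim
import Crest.Agent.X212.Dr59.Lat

/-!
# Row 212, QAB (helper51): limits of reductions on an open set and of their periods
-/

set_option autoImplicit false
set_option linter.unusedSectionVars false
noncomputable section
open scoped Manifold ContDiff Topology InnerProductSpace
open Filter MeasureTheory Set
open Crest.Agent.R208.F (Ext)

namespace Crest.Agent.X212.Clc51
open An Wz78 Eqv71 Cmp73 Abel74 Num57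
open Loc66 (Bub)
open Int54 (integ)
open Dr59 (Cs)

variable {E : Type} [NormedAddCommGroup E] [NormedSpace ℝ E] [FiniteDimensional ℝ E]
  [MeasurableSpace E] [BorelSpace E]
  {HM : Type} [TopologicalSpace HM] {I : ModelWithCorners ℝ E HM} [I.Boundaryless]
  {M : Type} [TopologicalSpace M] [ChartedSpace HM M] [IsManifold I ∞ M]
  [MeasurableSpace M] [BorelSpace M] [T2Space M] [SecondCountableTopology M] {ι : Type} [Fintype ι]
  {lam : Type} [Fintype lam] {α : Type} {B : Base M ι lam} {O : Set M}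

theorem k2_mix (F F₀ : Fr I M ι) (β : M → Ext E) (a b : ι) (x : M) : k2 F β a b x =
    ∑ s, Met55.fT F₀.e (F.e a) x s * ∑ t, Met55.fT F₀.e (F.e b) x t * k2 F₀ β s t x := by
  have e : ∀ a, ee F x a = ∑ s, Met55.fT F₀.e (F.e a) x s • ee F₀ x s := fun a =>
    (Met55.sum_fT (Met55.pre_sp F₀.toPre x) (F.e a)).symm
  rw [k2, e a, e b, e2_vsum]
  simp only [e2_vsum', k2]

theorem cv_k2 {l : Filter α} [l.NeBot] {F : α → Fr I M ι} {F₀ : Fr I M ι} (f : Loc66.FCv l O F F₀)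
    (hO : IsOpen O) {β : M → Ext E} (hβ : Dr59.Sm I univ β) (a b : ι) :
    Cv I l O (fun n => k2 (F n) β a b) (k2 F₀ β a b) :=
  (Cv.sum fun s => (Loc66.FCv.fixed.fT hO (f a) s).mul (Cv.sum fun t =>
    (Loc66.FCv.fixed.fT hO (f b) t).mul (Cv.fixed' fun x => sa_k2 F₀ (hβ x trivial) s t))).congr
    (fun _ _ => .of_forall fun _ => k2_mix _ F₀ β a b _) fun _ _ => k2_mix _ F₀ β a b _

/-- the density of a period -/
def pd (B : Base M ι lam) (F : Fr I M ι) (f : ι → ι → M → ℝ) (v : M → Ext E) (x : M) : ℝ :=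
  ∑ a, ∑ b, ∑ c, ∑ d, B.o a b c d x * (f a b x * k2 F v c d x)

theorem integ_pd {G : Geo I M ι lam} {m : Md M ι lam} {W : m.Cn} (hB : B.OK I) (hG : G.OK B)
    (C : m.IsConn B G W) (h4 : Module.finrank ℝ E = 4) (ξ : M → m.A) (v : M → Ext E) :
    integ I (vol G.F B.o) (fm G.F m W ξ * v) =
      1 / 4 * ∫ x in tsupport v, pd B G.F (fF G.F m W ξ) v x ∂G.F.μ := by
  rw [setIntegral_eq_integral_of_forall_compl_eq_zero fun x hx => by
    simp [pd, k2, e2_zero, image_eq_zero_of_notMem_tsupport hx]]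
  exact Red.integ_fm hG C hB h4 v

variable {𝒰 : Ultrafilter α} {G : α → Geo I M ι lam} {G₀ : Geo I M ι lam} {m : α → Md M ι lam}
  {W : ∀ n, (m n).Cn} {ξ : ∀ n, M → (m n).A} {m₀ : Md M ι lam} {W₀ : m₀.Cn}
  {u : ∀ n, M → CL (m n).V m₀.V}

/-- **limits of reductions on an open set** -/
theorem red_lim (h : Bub 𝒰 B O ∅ G G₀ m W m₀ W₀ u)
    (hR : ∀ᶠ n in (𝒰 : Filter α), RedOn (G n).F (m n) (W n) O (ξ n)) :
    ∃ η, RedOn G₀.F m₀ W₀ O η ∧ (∀ x ∉ O, η x = 0) ∧ ∀ a b,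
      Cv I 𝒰 O (fun n => fF (G n).F (m n) (W n) (ξ n) a b) (fF G₀.F m₀ W₀ η a b) := by
  have f := fcv_of h.F h.hO
  have H := h.hm
  have hW : ∀ a, Cv I 𝒰 O (fun n => Ws (G n).F (W n) W₀ (u n) a) (W₀ a) := fun a =>
    have hA : Cv I 𝒰 O (fun n => dft (G n).F (W n) W₀ (u n) a) fun _ => 0 :=
      (h.cv a).mono le_rfl sdiff_empty.ge
    (((Cv.fixed' (h.hW.cc.sm a)).sub hA).add ((hA.clm trnL).mul
      ((Cv.const 1).sub (Cv.fixed' H.sp)))).congr (fun _ _ => .of_forall fun _ => rfl)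
      fun x _ => by simp
  have R : ∀ x ∈ O, ∀ᶠ q : α × M in (𝒰 : Filter α) ×ˢ 𝓝 x,
      RedOn (G q.1).F m₀ (Ws (G q.1).F (W q.1) W₀ (u q.1)) {q.2} (fun x => cj (u q.1 x) (ξ q.1 x)) ∧
      ∀ a b, fF (G q.1).F (m q.1) (W q.1) (ξ q.1) a b q.2 = fF (G q.1).F m₀
        (Ws (G q.1).F (W q.1) W₀ (u q.1)) (fun x => cj (u q.1 x) (ξ q.1 x)) a b q.2 := by
    intro x hx
    obtain ⟨A, hA, h1, h2, h3⟩ := h.iso_cpt isCompact_singleton (singleton_subset_iff.2 ⟨hx, id⟩)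
    have s : A ⊆ O := fun _ k => (h2 k).1
    filter_upwards [((h3.and h.ok).and hR).prod_mk (hA.mem_nhds (h1 rfl)),
      eventually_all.2 fun a => ((hW a).mb 0 x hx).smooth] with q ⟨⟨⟨k1, _, k2, k3⟩, k4⟩, k5⟩ k6
    exact ⟨((k4.mono s).push k1 hA (k2.mono s) (Pj41.OK.on H _) (k3.mono s)
      fun a y _ => h.hW.sk a y).mono (singleton_subset_iff.2 k5), fun a b => (fF_push k1 hA (k2.mono s)
        (Pj41.OK.on H _) (k3.mono s) (fun a y _ => h.hW.sk a y) k5 k6 (k4.mem _ (s k5)) a b).symm⟩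
  obtain ⟨η, hη⟩ := (mb_red (ξ := fun n x => cj (u n x) (ξ n x)) f H hW
    fun x hx => (R x hx).mono fun _ k => k.1).exists_cv
  have hξ : Cv I 𝒰 O (fun n x => cj (u n x) (ξ n x)) (O.indicator η) :=
    hη.congr (fun _ _ => .of_forall fun _ => rfl) fun x hx => indicator_of_mem hx _
  exact ⟨_, redOn_lim f h.hO hW hξ fun x hx => (R x hx).curry.mono fun _ k => k.self_of_nhds.1,
    fun x hx => indicator_of_notMem hx _, fun a b => (cv_fF f h.hO H hW hξ h.hB a b).congr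
      (fun x hx => (R x hx).mono fun _ k => k.2 a b) fun _ _ => rfl⟩

/-- **periods converge** -/
theorem per_lim (h : Bub 𝒰 B O ∅ G G₀ m W m₀ W₀ u) (h4 : Module.finrank ℝ E = 4)
    (hC : ∀ᶠ n in (𝒰 : Filter α), (m n).IsConn B (G n) (W n)) {η : M → m₀.A}
    (k : ∀ a b, Cv I 𝒰 O (fun n => fF (G n).F (m n) (W n) (ξ n) a b) (fF G₀.F m₀ W₀ η a b))
    {v : M → Ext E} (hv : Cs I 2 O v) :
    Tendsto (fun n => integ I (vol (G n).F B.o) (fm (G n).F (m n) (W n) (ξ n) * v)) 𝒰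
      (𝓝 (integ I (vol G₀.F B.o) (fm G₀.F m₀ W₀ η * v))) := by
  rw [integ_pd h.hB h.hG h.hW h4]
  refine ((h.F.setIntegral h.hO (h.ok.mono fun _ k => k.1.vol) h.hG.vol (f := fun n =>
    pd B (G n).F (fF (G n).F (m n) (W n) (ξ n)) v) (Cv.sum fun a => Cv.sum fun b => Cv.sum fun c =>
      Cv.sum fun d => (Cv.fixed' (h.hB.so a b c d)).mul ((k a b).mul (cv_k2 h.F h.hO hv.cl.sm c d)))
    hv.hc hv.sub (isClosed_tsupport _).measurableSet Subset.rfl).const_mul _).congr' ?_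
  exact (hC.and h.ok).mono fun n k => (integ_pd h.hB k.2.1 k.1 h4 _ _).symm

end Crest.Agent.X212.Clc51
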