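import Crest.Agent.X212.Qab60.Lh
import Crest.Agent.X212.Sep15.Gau

/-!
# Row 212, QAB (helper51): the leaf H-LOC
-/

set_option autoImplicit false
set_option linter.unusedSectionVars false
noncomputable section
open scoped Manifold ContDiff Topology
open Filter Set Function

namespace Crest.Agent.X212.Clc51
open An M Qab60 Nd18 Rf65 G75 Ins26 Eqv71
open Wrd81 (TmIn Bas)
open Abel74 (fm)

section gen
variable {E : Type} [NormedAddCommGroup E] [NormedSpace ℝ E] [FiniteDimensional ℝ E]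
  [MeasurableSpace E] [BorelSpace E]
  {HM : Type} [TopologicalSpace HM] {I : ModelWithCorners ℝ E HM} [I.Boundaryless]
  {M : Type} [TopologicalSpace M] [ChartedSpace HM M] [IsManifold I ∞ M]
  [MeasurableSpace M] [BorelSpace M] [T2Space M] [SecondCountableTopology M] {ι : Type} [Fintype ι]
  {lam : Type} [Fintype lam] {B : Base M ι lam} {G : Geo I M ι lam} {Ω : Set M} {r : ℕ}
  {c : Cfg M ι lam r} {ξ : M → c.m.A}

theorem ab_z (h : Ab B G Ω c ξ) : Ab B G Ω ⟨c.m, c.W, 0, c.z⟩ ξ :=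
  ⟨⟨h.adm.ok, h.adm.conn, contMDiff_const, fun _ => map_zero _, h.adm.z⟩, h.rd, fun _ _ => rfl⟩

end gen

section job
variable {Wi : Type} {X : Mf 4} {A κ lam : Type} [Fintype A] [Fintype κ] [Fintype lam]
  [DecidableEq lam] {M : Mark X A κ} {W : World M} {N : ML M lam} {Λ : Lns W N}
  {A' h : Type} [Fintype A'] [DecidableEq A'] [Fintype h] {r n : ℕ}
  {J : Job Wi Λ A' h r n} {c : M.Cl} {σ : Cel A'} {s t : A' → ℝ} {q : Wi →₀ ℝ}
  {x : Cg' W c lam r} {ξ : (W.Z c).M → x.m.A}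
  (hJ : J.OK) (nl : ∀ a, Nl J a) (bas : ∀ w, Bas (J.tw w)) (hσ : σ ∈ J.𝒦) (hs : J.Ov σ c s)
include hJ nl bas hσ hs

/-- the spinor off `Ω` is not seen on `Ω` -/
theorem eC_z {Ω : Set (W.Z c).M} (hΩ : IsClopen Ω) (k : Ab (J.B c) (J.G c s) Ω x ξ) {z}
    (hz : z ∈ Ω) : x.eC (J.B c) (J.G c s) (J.τ c q s) z =
      (⟨x.m, x.W, 0, x.z⟩ : Cg' W c lam r).eC (J.B c) (J.G c s) (J.τ c q s) z := by
  rw [Ink3.τ_nil c s (fun a => (nl a).1) (fun a w => congrFun (nl a).2 w) q, Cfg.eC, Cfg.eC,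
    k.z z hz]
  refine congrArg _ (Finset.sum_congr rfl fun w _ => congrArg (q w • ·) ?_)
  by_cases h0 : J.co w s = 0
  · simp only [Pt.smul, h0, zero_smul]
  · have i := (hJ.tw_in hσ hs h0).choose_spec.mono (subset_univ _)
    have g := fun {y η} k => Sep15.Gau.gau _ _ _ _ r n _ _ Ω y η (Λ.B_ok _ _) (hJ.G_ok hσ hs)
      (hJ.tame hσ hs) hΩ k _ i (Nat75.bas_tm (bas w)) z hz
    exact congrArg (J.co w s • ·) ((g k).2.trans (g (ab_z k)).2.symm)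

/-- abelian solutions on a part at another parameter -/
theorem loc_ab {p : Prt A A' h} (hp : J.POK σ c p) (ht : J.Ov σ c t) (e : ∀ a ∈ p.V, s a = t a)
    (k : Ab (J.B c) (J.G c s) (W.un c p.P) x ξ)
    (C : ∀ z ∈ W.un c p.P, x.eC (J.B c) (J.G c s) (J.τ c q s) z = 0) :
    ∃ V : x.m.Cn, Ab (J.B c) (J.G c t) (W.un c p.P) ⟨x.m, V, x.Φ, x.z⟩ ξ ∧
      fm (J.G c t).F x.m V ξ = fm (J.G c s).F x.m x.W ξ ∧ ∀ z ∈ W.un c p.P,
        (⟨x.m, V, x.Φ, x.z⟩ : Cg' W c lam r).eC (J.B c) (J.G c t) (J.τ c q t) z = 0 := by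
  have hO := Job.isClopen_un (W := W) hp.pc
  have f := hp.fr_eq hJ hσ hs ht e
  obtain ⟨V, h1, h2, h3⟩ := Cay24.trnStmt r _ _ _ _ x ξ (Λ.B_ok _ _) (hJ.G_ok hσ hs)
    (hJ.G_ok hσ ht) k
  have h4 := h3 _ hO.2 fun a z hz => ⟨(f z hz a).1.symm, (f z hz a).2.symm⟩
  refine ⟨V, h1, h2, fun z hz => ?_⟩
  have a := ceq_refl (Λ.B_ok _ _) (hJ.G_ok hσ hs) (ad0 (ab_z k).adm) hO.2
  have := (hp.t_rel hJ hσ hs ht e q).eC (Wrd81.lg_on (Λ.B_ok _ _) (hJ.G_ok hσ hs) (hJ.G_ok hσ ht)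
    hO.2 f) ⟨ad0 (ab_z k).adm, ad0 (ab_z h1).adm, fun _ _ => rfl, fun _ _ => rfl, a.m,
      fun y hy b => by simpa only [id, h4 _ y hy] using a.W y hy b, a.Φ, a.z⟩ hz
  rw [← eC_z hJ nl bas hσ hs hO k hz, C z hz, map_zero] at this
  exact (eC_z hJ nl bas hσ ht hO h1 hz).trans this

omit nl bas hs in
theorem lt_one (o : Ovc J c σ s) {a : A'} {y : A} (ha : J.hd a = some y) (hy : y ∉ c.1) : s a < 1 :=
  let ⟨_, h1, h2⟩ := hJ.lin
  (o.2.1.2 a).2.lt_of_ne fun e => hy (o.2.2.le ((h2 a y ha s (h1.le.trans e.ge)).1.trans e))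

omit nl bas hs in
theorem ovc_upd (o : Ovc J c σ s) {a : A'} (ha : σ a = none) (h1 : s a < 1) {u : ℝ}
    (hu : u ∈ Ico (0 : ℝ) 1) : Ovc J c σ (update s a u) := by
  obtain ⟨_, l1, l2⟩ := hJ.lin
  have m : update s a u ∈ Job.cl σ := ⟨fun a' b e => by
    rw [update_of_ne (by rintro rfl; simp [ha] at e), o.2.1.1 a' b e], fun a' => by
      rcases eq_or_ne a' a with rfl | e
      · rw [update_self]; exact Ico_subset_Icc_self hu
      · rw [update_of_ne e]; exact o.2.1.2 a'⟩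
  refine ⟨hσ, m, o.2.2 ▸ Subset.antisymm (fun y hy => ?_) fun y hy => ?_⟩
  · obtain ⟨a', k1, k2⟩ := hJ.inf σ hσ _ (J.cl_dom m) y hy
    rw [update_of_ne (by rintro rfl; exact hu.2.ne (by simpa using k2))] at k2
    exact (l2 a' y k1 s (l1.le.trans k2.ge)).1.trans k2
  · obtain ⟨a', k1, k2⟩ := hJ.inf σ hσ _ (J.cl_dom o.2.1) y hy
    rw [← update_of_ne (show a' ≠ a by rintro rfl; exact h1.ne k2) u s] at k2
    exact (l2 a' y k1 _ (l1.le.trans k2.ge)).1.trans k2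

end job

variable {κ lam : Type} [Fintype κ] [Fintype lam] [DecidableEq lam] {Lm : LM κ lam}

section
variable {S : Scene Lm} {D : S.Dat} {i : S.L} {Wi : Type} {r n : ℕ}
  {J : Job Wi (D.Λ i) (S.A ⊕ Unit) S.ls r n} {c : S.M.Cl} {R : S.A} {e : Bool → S.A} {Q : QD S R e}
  {E b z j n₀ T σ s} (H : JR J R E b z j n₀ T) (h1 : c.1 = {R}) (o : Ovc J c σ s)
include H h1 o

theorem e_ne (hQ : Q.OK i) : e false ≠ e true := fun k => by
  have q := (jq_of hQ H h1).qe s ((jq_of hQ H h1).act ⟨σ, o⟩)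
  have : Q.γ true * Q.η false = 0 := funext fun x => (em _).elim (fun m => by
    rw [Pi.mul_apply, hQ.η0 false x (.inl (k ▸ m)), mul_zero, Pi.zero_apply]) fun m => by
      rw [Pi.mul_apply, (hQ.csγ true).eq_zero m, zero_mul, Pi.zero_apply]
  have g : (qt D.W c Q).γ true * (qt D.W c Q).η false = 0 :=
    (Qt4.pu_mul (D.W.φ c)).trans (by simp [this, Qt4.pu])
  refine q.α_η ?_
  rw [q.ok.dα, sub_mul, q.ok.γη, g, sub_zero, Int54.integ_zero]

theorem cell_R : ∃ τ, σ = cel τ (some false) ∧ R ∈ τ ∧ ↑τ ⊆ hard S {R} ∧ ∃ ρ ∈ S.K i, τ ⊆ ρ := by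
  obtain ⟨τ, u, ρ, rfl, k1, k2, -, k3, -⟩ := H.gx.cell σ o.1
  obtain ⟨a, k4, k5⟩ := H.gx.ok.inf _ o.1 s (J.cl_dom o.2.1) R (o.2.2.ge (h1.ge rfl))
  refine ⟨τ, congrArg _ (H.o _ o.1), by_contra fun m => ?_, k3, ρ, k2, k1⟩
  rw [H.gx.hd] at k4
  rcases a with a | _
  · obtain rfl : a = R := by simpa using (Option.ite_none_right_eq_some.1 k4).2
    exact zero_ne_one ((o.2.1.1 (.inl a) false (if_neg m)).symm.trans k5)
  · exact nomatch k4

end

variable (Lm) in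
/-- **H-LOC** -/
theorem hLoc : HLoc Lm := fun S D i Wi r n J c R e Q j n₀ T hQ H h1 _ => by
  have hJ := H.gx.ok
  have ne : ∀ b, e b ≠ R := fun b k => hQ.np (k ▸ (hQ.pin b).1)
  refine ⟨fun σ s b o hb => ?_, fun q σ s s' x ξ o o' k a C => ?_⟩
  · have hd : J.hd (eI e b) = some (e b) := by
      rw [H.gx.hd]; exact if_pos (.inl (hQ.pin b).1)
    have lt := lt_one hJ o.1 o hd (h1 ▸ ne b)
    refine ⟨hd, ⟨if_neg (ne b), (subset_union_right.trans (hQ.pin b).2.2).trans (U_hp false).ge,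
      fun a ha => ?_⟩, lt, ?_, fun t => ovc_upd hJ o.1 o hb lt⟩
    · obtain ⟨_, ha⟩ := Sys.mem_bd.1 ha
      exact (Mp86.St.hp_some.1 ha).1 ▸ (hQ.pin b).2.1.symm
    obtain ⟨τ, rfl, k1, -⟩ := cell_R H h1 o
    refine o.2.1.1 _ false (if_neg fun m => ?_)
    have m' : e b ∈ τ := by_contra fun k => nomatch (if_neg k).symm.trans hb
    have := H.one τ _ o.1 k1
    rw [Finset.inter_eq_right.2 (by cases b <;> simp_all [Finset.insert_subset_iff]),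
      Finset.card_pair (e_ne H h1 o hQ)] at this
    omega
  have hp := H.gx.loc.pok σ o.1 c {hp R false} ∅ ∅
    (fun _ m => m ▸ h1 ▸ Mp86.St.piece_hp false) (empty_subset _)
  have u : oI D.W c R = D.W.un c (J.prt (shX S {R}) σ c {Rf65.hp R false} ∅ ∅).P :=
    (biUnion_singleton _ (D.W.pc c)).symm
  rw [u] at a C ⊢
  refine loc_ab hJ (fun a => H.gx.nil a (by simp)) H.gx.loc.bas o.1 ⟨J.cl_dom o.2.1, o.2.2⟩ hp
    ⟨J.cl_dom o'.2.1, o'.2.2⟩ ?_ a C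
  obtain ⟨τ, rfl, k1, k2, ρ, k3, k4⟩ := cell_R H h1 o
  rintro (y | _) ⟨v1, v2, v3⟩
  swap
  · exact nomatch v1
  have m : y ∈ τ := by_contra fun k => nomatch (if_neg k).symm.trans v1
  have hd : J.hd (.inl y) = some y := by rw [H.gx.hd]; exact if_pos (k2 m)
  rcases hQ.out ρ k3 (k4 k1) y (k4 m) with rfl | ⟨b, rfl⟩ | v
  · exact (v2 _ hd (h1.ge rfl)).elim
  · exact k b
  obtain v3 | ⟨_, rfl, _, v3, v4⟩ := v3
  · exact (v3 y (k2 m) rfl).elim
  obtain rfl := Option.some.inj (hd.symm.trans v4)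
  obtain ⟨z, hz⟩ := (S.M.sys.w y).ne true
  exact ((S.M.sys.w R).not_mem_sd (v hz.1) ((U_hp false).le (v3.2.1 hz.1))).elim

end Crest.Agent.X212.Clc51
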